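import Vale.Agent.P235.K5.Wagner

/-!
# P235-K5, Wagner, row [W10]: the torsos of the components of `G - s`
-/

set_option autoImplicit false

namespace Vale.Agent.P235.K5.H648

open SimpleGraph Vale.Agent.P235.H134 Vale.Agent.P235.H56 Vale.Agent.P235.K5.W

section trans

theorem reach_union {V X : Type} {G : SimpleGraph V} {K : SimpleGraph X} {ν : X → Set V}
    (h1 : ∀ a, (G.induce (ν a)).Connected)
    (h3 : ∀ a b, K.Adj a b → ∃ x ∈ ν a, ∃ y ∈ ν b, G.Adj x y) {S : Set X} {T : Set V}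
    (hT : ∀ x ∈ S, ν x ⊆ T) {x y : S} (w : (K.induce S).Walk x y) :
    ∀ (u v : V) (hu : u ∈ ν x.1) (hv : v ∈ ν y.1),
      (G.induce T).Reachable ⟨u, hT x.1 x.2 hu⟩ ⟨v, hT y.1 y.2 hv⟩ := by
  have hin : ∀ (x : S) (u v : V) (hu : u ∈ ν x.1) (hv : v ∈ ν x.1),
      (G.induce T).Reachable ⟨u, hT x.1 x.2 hu⟩ ⟨v, hT x.1 x.2 hv⟩ := by
    intro x u v hu hv
    exact ((h1 x.1).preconnected ⟨u, hu⟩ ⟨v, hv⟩).map (induceHomOfLE G (hT x.1 x.2)).toHom
  induction w with
  | nil => exact hin _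
  | @cons a b c hab _ ih =>
    intro u v hu hv
    obtain ⟨p, hp, q, hq, hpq⟩ := h3 a.1 b.1 hab
    refine (hin a u p hu hp).trans (Reachable.trans ?_ (ih q v hq hv))
    exact Adj.reachable (show (G.induce T).Adj ⟨p, hT a.1 a.2 hp⟩ ⟨q, hT b.1 b.2 hq⟩ from hpq)

theorem minor_trans {W X V : Type} {H : SimpleGraph W} {K : SimpleGraph X} {G : SimpleGraph V}
    (h : IsMinor H K) (h' : IsMinor K G) : IsMinor H G := by
  obtain ⟨μ, a1, a2, a3⟩ := h
  obtain ⟨ν, b1, b2, b3⟩ := h'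
  refine ⟨fun a => ⋃ x ∈ μ a, ν x, fun a => ?_, fun a b hab => ?_, fun a b hab => ?_⟩
  · have hT : ∀ x ∈ μ a, ν x ⊆ ⋃ x ∈ μ a, ν x := fun x hx => Set.subset_biUnion_of_mem hx
    obtain ⟨⟨x0, hx0⟩⟩ := (a1 a).nonempty
    obtain ⟨⟨v0, hv0⟩⟩ := (b1 x0).nonempty
    have : Nonempty (⋃ x ∈ μ a, ν x : Set V) := ⟨⟨v0, hT x0 hx0 hv0⟩⟩
    refine ⟨fun u v => ?_⟩
    obtain ⟨u, hu⟩ := u
    obtain ⟨v, hv⟩ := v
    obtain ⟨x, hx, hux⟩ := Set.mem_iUnion₂.1 hu
    obtain ⟨y, hy, hvy⟩ := Set.mem_iUnion₂.1 hv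
    obtain ⟨w⟩ := (a1 a).preconnected ⟨x, hx⟩ ⟨y, hy⟩
    exact reach_union b1 b3 hT w u v hux hvy
  · rw [Set.disjoint_left]
    intro z hz hz'
    obtain ⟨x, hx, hzx⟩ := Set.mem_iUnion₂.1 hz
    obtain ⟨y, hy, hzy⟩ := Set.mem_iUnion₂.1 hz'
    by_cases hxy : x = y
    · subst hxy
      exact Set.disjoint_left.1 (a2 a b hab) hx hy
    · exact Set.disjoint_left.1 (b2 x y hxy) hzx hzy
  · obtain ⟨x, hx, y, hy, hxy⟩ := a3 a b hab
    obtain ⟨p, hp, q, hq, hpq⟩ := b3 x y hxy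
    exact ⟨p, Set.mem_iUnion₂.2 ⟨x, hx, hp⟩, q, Set.mem_iUnion₂.2 ⟨y, hy, hq⟩, hpq⟩

end trans

section

variable {V : Type} {G : SimpleGraph V}

theorem cn_single (G : SimpleGraph V) (x : V) : Cn G {x} := by
  have : Nonempty ({x} : Set V) := ⟨⟨x, rfl⟩⟩
  refine ⟨fun a b => ?_⟩
  have : a = b := Subtype.ext ((Set.mem_singleton_iff.1 a.2).trans
    (Set.mem_singleton_iff.1 b.2).symm)
  rw [this]

theorem walk_in {C T : Set V} (hstep : ∀ u ∈ C, u ∈ T → ∀ v ∈ C, G.Adj u v → v ∈ T) {a b : C}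
    (w : (G.induce C).Walk a b) : a.1 ∈ T → b.1 ∈ T := by
  induction w with
  | nil => exact id
  | @cons x y z h _ ih => exact fun ha => ih (hstep x.1 x.2 ha y.1 y.2 h)

theorem cn_sub {C T : Set V} (hC : Cn G C)
    (hstep : ∀ u ∈ C, u ∈ T → ∀ v ∈ C, G.Adj u v → v ∈ T) {x : V} (hx : x ∈ C) (hxT : x ∈ T) :
    C ⊆ T := by
  intro y hy
  obtain ⟨w⟩ := hC.preconnected ⟨x, hx⟩ ⟨y, hy⟩
  exact walk_in hstep w hxT

theorem fin3a : ∀ k : Fin 3, k + 1 ≠ k ∧ k + 2 ≠ k ∧ k + 1 ≠ k + 2 := by decide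

theorem fin3b : ∀ j k : Fin 3, k = j ∨ k = j + 1 ∨ k = j + 2 := by decide

variable {s : Fin 3 → V} {D : Fin 3 → Set V} (hcut : Cut G s D)
include hcut

/-- a component sees all the three vertices -/
theorem sees (h3 : Conn3 G) (i j : Fin 3) : ∃ z ∈ D i, G.Adj z (s j) := by
  by_contra hne
  push Not at hne
  obtain ⟨⟨x, hx⟩⟩ := (hcut.cn i).nonempty
  have h := h3 (s (j + 1)) (s (j + 2)) (D i) ⟨x, hx⟩ (hcut.off i _) (hcut.off i _)
    (fun u hu v huv => by
      rcases hcut.nb i u hu v huv with h | ⟨k, rfl⟩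
      · exact Or.inl h
      · rcases fin3b j k with h | h | h
        · rw [h] at huv
          exact absurd huv (hne u hu)
        · right; left; rw [h]
        · right; right; rw [h]) (s j)
  obtain ⟨f1, f2, -⟩ := fin3a j
  rcases h with h | h | h
  · exact hcut.off i j h
  · exact f1 (hcut.inj h).symm
  · exact f2 (hcut.inj h).symm

variable {C : Set V} (hC : Cn G C) (hsC : ∀ j, s j ∉ C)
include hC hsC

/-- two of the components are disjoint from `C` -/
theorem two_comp : ∃ i0 i1 : Fin 3, i0 ≠ i1 ∧ Disjoint (D i0) C ∧ Disjoint (D i1) C := by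
  by_cases h : ∃ k, ¬ Disjoint (D k) C
  · obtain ⟨k, hk⟩ := h
    rw [Set.not_disjoint_iff] at hk
    obtain ⟨x, hxD, hxC⟩ := hk
    have hsub : C ⊆ D k := cn_sub hC (fun u _ hu v hv huv => by
      rcases hcut.nb k u hu v huv with h | ⟨j, rfl⟩
      · exact h
      · exact absurd hv (hsC j)) hxC hxD
    obtain ⟨f1, f2, f3⟩ := fin3a k
    exact ⟨k + 1, k + 2, f3, (hcut.dis _ _ f1).mono_right hsub,
      (hcut.dis _ _ f2).mono_right hsub⟩
  · push Not at h
    exact ⟨0, 1, by decide, h 0, h 1⟩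

end

/-- **[W10]** -/
theorem torsoStmt : TorsoStmt := by
  intro V _ G h3 hK5 s D hcut C hC hsC hcl
  obtain ⟨i0, i1, hi, hd0, hd1⟩ := two_comp hcut hC hsC
  have hdis0 : ∀ x, x ∈ D i0 → ¬ (x ∈ C ∨ ∃ j, x = s j) := by
    rintro x hx (h | ⟨j, rfl⟩)
    · exact Set.disjoint_left.1 hd0 hx h
    · exact hcut.off i0 j hx
  have hdis1 : ∀ x, x ∈ D i1 → ¬ (x ∈ C ∨ ∃ j, x = s j) := by
    rintro x hx (h | ⟨j, rfl⟩)
    · exact Set.disjoint_left.1 hd1 hx h
    · exact hcut.off i1 j hx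
  refine ⟨?_, ?_, ?_, ?_⟩
  · -- 3-connected
    intro u v X hX hu hv hclX y
    by_cases hs : ∃ w ∈ X, ∃ j, (w : V) = s j
    · obtain ⟨w, hw, j0, hwj⟩ := hs
      have hall : ∀ j, (⟨s j, Or.inr ⟨j, rfl⟩⟩ : {x : V // x ∈ C ∨ ∃ j, x = s j}) ∈ X ∨
          (⟨s j, Or.inr ⟨j, rfl⟩⟩ : {x : V // x ∈ C ∨ ∃ j, x = s j}) = u ∨
          (⟨s j, Or.inr ⟨j, rfl⟩⟩ : {x : V // x ∈ C ∨ ∃ j, x = s j}) = v := by
        intro j
        by_cases hj : s j = s j0
        · left
          have : (⟨s j, Or.inr ⟨j, rfl⟩⟩ : {x : V // x ∈ C ∨ ∃ j, x = s j}) = w :=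
            Subtype.ext (hj.trans hwj.symm)
          rw [this]
          exact hw
        · refine hclX w hw _ ⟨?_, Or.inr ⟨⟨j0, hwj⟩, ⟨j, rfl⟩⟩⟩
          intro he
          exact hj ((congrArg Subtype.val he).symm.trans hwj)
      have key := h3 u.1 v.1 {z : V | ∀ h : z ∈ C ∨ ∃ j, z = s j,
          (⟨z, h⟩ : {x : V // x ∈ C ∨ ∃ j, x = s j}) ∈ X} ⟨w.1, fun _ => hw⟩
        (fun h => hu (h u.2)) (fun h => hv (h v.2)) (by
          intro a ha b hab
          by_cases hb : b ∈ C ∨ ∃ j, b = s j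
          · have goal : (⟨b, hb⟩ : {x : V // x ∈ C ∨ ∃ j, x = s j}) ∈ X ∨
                (⟨b, hb⟩ : {x : V // x ∈ C ∨ ∃ j, x = s j}) = u ∨
                (⟨b, hb⟩ : {x : V // x ∈ C ∨ ∃ j, x = s j}) = v := by
              by_cases haT : a ∈ C ∨ ∃ j, a = s j
              · refine hclX ⟨a, haT⟩ (ha haT) ⟨b, hb⟩ ⟨?_, Or.inl hab⟩
                intro he
                exact hab.ne (congrArg Subtype.val he)
              · rcases hb with hb | ⟨j, rfl⟩
                · exact absurd (hcl b hb a hab.symm) haT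
                · exact hall j
            rcases goal with h | h | h
            · exact Or.inl fun _ => h
            · exact Or.inr (Or.inl (congrArg Subtype.val h))
            · exact Or.inr (Or.inr (congrArg Subtype.val h))
          · exact Or.inl fun h => absurd h hb) y.1
      rcases key with h | h | h
      · exact Or.inl (h y.2)
      · exact Or.inr (Or.inl (Subtype.ext h))
      · exact Or.inr (Or.inr (Subtype.ext h))
    · have hXC : ∀ w ∈ X, (w : V) ∈ C := by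
        intro w hw
        rcases w.2 with h | h
        · exact h
        · exact absurd ⟨w, hw, h⟩ hs
      obtain ⟨w0, hw0⟩ := hX
      have key := h3 u.1 v.1 {z : V | ∃ h : z ∈ C ∨ ∃ j, z = s j,
          (⟨z, h⟩ : {x : V // x ∈ C ∨ ∃ j, x = s j}) ∈ X} ⟨w0.1, w0.2, hw0⟩
        (fun ⟨_, h⟩ => hu h) (fun ⟨_, h⟩ => hv h) (by
          rintro a ⟨haT, ha⟩ b hab
          have hb : b ∈ C ∨ ∃ j, b = s j := hcl a (hXC _ ha) b hab
          rcases hclX ⟨a, haT⟩ ha ⟨b, hb⟩ ⟨fun he => hab.ne (congrArg Subtype.val he),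
            Or.inl hab⟩ with h | h | h
          · exact Or.inl ⟨hb, h⟩
          · exact Or.inr (Or.inl (congrArg Subtype.val h))
          · exact Or.inr (Or.inr (congrArg Subtype.val h))) y.1
      rcases key with ⟨_, h⟩ | h | h
      · exact Or.inl h
      · exact Or.inr (Or.inl (Subtype.ext h))
      · exact Or.inr (Or.inr (Subtype.ext h))
  · -- no `K_5` minor
    intro hmin
    apply hK5
    refine minor_trans hmin ?_
    refine ⟨fun w => {y | y = w.1 ∨ (w.1 = s 0 ∧ y ∈ D i0) ∨ (w.1 = s 1 ∧ y ∈ D i1)},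
      fun w => ?_, fun a b hab => ?_, fun a b hab => ?_⟩
    · -- connected
      by_cases h0 : w.1 = s 0
      · have h1 : w.1 ≠ s 1 := fun h => absurd (hcut.inj (h0.symm.trans h)) (by decide)
        have he : {y | y = w.1 ∨ (w.1 = s 0 ∧ y ∈ D i0) ∨ (w.1 = s 1 ∧ y ∈ D i1)} =
            {s 0} ∪ D i0 := by
          ext y
          simp only [Set.mem_ofPred_eq, Set.mem_union, Set.mem_singleton_iff, h0, true_and]
          constructor
          · rintro (h | h | ⟨h, -⟩)
            · exact Or.inl h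
            · exact Or.inr h
            · exact absurd (h0.trans h) h1
          · rintro (h | h)
            · exact Or.inl h
            · exact Or.inr (Or.inl h)
        show Cn G {y | y = w.1 ∨ (w.1 = s 0 ∧ y ∈ D i0) ∨ (w.1 = s 1 ∧ y ∈ D i1)}
        rw [he]
        obtain ⟨z, hz, hzs⟩ := sees hcut h3 i0 0
        exact connected_induce_union (cn_single _ _).preconnected
          (hcut.cn i0).preconnected rfl hz hzs.symm
      · by_cases h1 : w.1 = s 1
        · have he : {y | y = w.1 ∨ (w.1 = s 0 ∧ y ∈ D i0) ∨ (w.1 = s 1 ∧ y ∈ D i1)} =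
              {s 1} ∪ D i1 := by
            ext y
            simp only [Set.mem_ofPred_eq, Set.mem_union, Set.mem_singleton_iff, h1, true_and]
            constructor
            · rintro (h | ⟨h, -⟩ | h)
              · exact Or.inl h
              · exact absurd (h1.trans h) h0
              · exact Or.inr h
            · rintro (h | h)
              · exact Or.inl h
              · exact Or.inr (Or.inr h)
          show Cn G {y | y = w.1 ∨ (w.1 = s 0 ∧ y ∈ D i0) ∨ (w.1 = s 1 ∧ y ∈ D i1)}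
          rw [he]
          obtain ⟨z, hz, hzs⟩ := sees hcut h3 i1 1
          exact connected_induce_union (cn_single _ _).preconnected
            (hcut.cn i1).preconnected rfl hz hzs.symm
        · have he : {y | y = w.1 ∨ (w.1 = s 0 ∧ y ∈ D i0) ∨ (w.1 = s 1 ∧ y ∈ D i1)} =
              {w.1} := by
            ext y
            simp only [Set.mem_ofPred_eq, Set.mem_singleton_iff]
            constructor
            · rintro (h | ⟨h, -⟩ | ⟨h, -⟩)
              · exact h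
              · exact absurd h h0
              · exact absurd h h1
            · exact Or.inl
          show Cn G {y | y = w.1 ∨ (w.1 = s 0 ∧ y ∈ D i0) ∨ (w.1 = s 1 ∧ y ∈ D i1)}
          rw [he]
          exact cn_single _ _
    · -- disjoint
      have hne : a.1 ≠ b.1 := fun h => hab (Subtype.ext h)
      rw [Set.disjoint_left]
      rintro z (ha | ⟨ha, ha'⟩ | ⟨ha, ha'⟩) (hb | ⟨hb, hb'⟩ | ⟨hb, hb'⟩)
      · exact hne (ha.symm.trans hb)
      · exact hdis0 z hb' (ha ▸ a.2)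
      · exact hdis1 z hb' (ha ▸ a.2)
      · exact hdis0 z ha' (hb ▸ b.2)
      · exact hne (ha.trans hb.symm)
      · exact Set.disjoint_left.1 (hcut.dis i0 i1 hi) ha' hb'
      · exact hdis1 z ha' (hb ▸ b.2)
      · exact Set.disjoint_left.1 (hcut.dis i0 i1 hi) hb' ha'
      · exact hne (ha.trans hb.symm)
    · -- adjacent
      obtain ⟨hne, h⟩ := hab
      have hne' : a.1 ≠ b.1 := fun h => hne (Subtype.ext h)
      rcases h with h | ⟨⟨i, hi'⟩, j, hj'⟩
      · exact ⟨a.1, Or.inl rfl, b.1, Or.inl rfl, h⟩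
      · have hij : i ≠ j := by
          rintro rfl
          exact hne' (hi'.trans hj'.symm)
        have hcase : ∀ i j : Fin 3, i ≠ j → i = 0 ∨ j = 0 ∨ i = 1 ∨ j = 1 := by decide
        rcases hcase i j hij with h | h | h | h
        · obtain ⟨z, hz, hzs⟩ := sees hcut h3 i0 j
          exact ⟨z, Or.inr (Or.inl ⟨by rw [hi', h], hz⟩), b.1, Or.inl rfl, by rw [hj']; exact hzs⟩
        · obtain ⟨z, hz, hzs⟩ := sees hcut h3 i0 i
          exact ⟨a.1, Or.inl rfl, z, Or.inr (Or.inl ⟨by rw [hj', h], hz⟩),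
            by rw [hi']; exact hzs.symm⟩
        · obtain ⟨z, hz, hzs⟩ := sees hcut h3 i1 j
          exact ⟨z, Or.inr (Or.inr ⟨by rw [hi', h], hz⟩), b.1, Or.inl rfl, by rw [hj']; exact hzs⟩
        · obtain ⟨z, hz, hzs⟩ := sees hcut h3 i1 i
          exact ⟨a.1, Or.inl rfl, z, Or.inr (Or.inr ⟨by rw [hj', h], hz⟩),
            by rw [hi']; exact hzs.symm⟩
  · -- fewer vertices
    obtain ⟨⟨x, hx⟩⟩ := (hcut.cn i0).nonempty
    exact Finite.card_subtype_lt (hdis0 x hx)
  · -- at least four vertices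
    obtain ⟨⟨c, hc⟩⟩ := hC.nonempty
    let f : Option (Fin 3) → {x : V // x ∈ C ∨ ∃ j, x = s j} := fun o =>
      match o with
      | none => ⟨c, Or.inl hc⟩
      | some j => ⟨s j, Or.inr ⟨j, rfl⟩⟩
    have hf : Function.Injective f := by
      rintro (_ | i) (_ | j) hij
      · rfl
      · exact absurd (congrArg Subtype.val hij) (fun h : c = s j => hsC j (h ▸ hc))
      · exact absurd (congrArg Subtype.val hij) (fun h : s i = c => hsC i (h ▸ hc))
      · exact congrArg some (hcut.inj (congrArg Subtype.val hij))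
    have := Nat.card_le_card_of_injective f hf
    simpa using this

end Vale.Agent.P235.K5.H648
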