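import Vale.Agent.P235.K5.Wagner

/-!
# P235-K5, Wagner, row [W8a]: `V_8` with one more edge has a `K_5` minor
-/

set_option autoImplicit false

namespace Vale.Agent.P235.K5.H648

open SimpleGraph Vale.Agent.P235.H134 Vale.Agent.P235.H56 Vale.Agent.P235.K5.W

/-- the adjacency of `V_8` -/
def raw (i j : Fin 8) : Prop := (j = i + 1 ∨ j = i + 4) ∨ (i = j + 1 ∨ i = j + 4)

instance : DecidableRel raw := fun i j => by unfold raw; infer_instance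

theorem raw_ne : ∀ i j : Fin 8, raw i j → i ≠ j := by decide

theorem V8_adj {i j : Fin 8} : V8.Adj i j ↔ raw i j := by
  unfold V8
  rw [SimpleGraph.fromRel_adj]
  constructor
  · rintro ⟨-, h⟩
    exact h
  · intro h
    exact ⟨raw_ne i j h, h⟩

theorem raw_shift : ∀ a i j : Fin 8, raw i j → raw (i + a) (j + a) := by decide

/-- the adjacency of `V_8` with the edge `0 d` -/
def rd (d i j : Fin 8) : Prop := raw i j ∨ (i = 0 ∧ j = d) ∨ (i = d ∧ j = 0)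

instance (d : Fin 8) : DecidableRel (rd d) := fun i j => by unfold rd; infer_instance

theorem Ad.symm {V : Type} {G : SimpleGraph V} {X Y : Set V} (h : Ad G X Y) : Ad G Y X := by
  obtain ⟨x, hx, y, hy, hxy⟩ := h
  exact ⟨y, hy, x, hx, hxy.symm⟩

theorem Ad.mono {V : Type} {G : SimpleGraph V} {X Y X' Y' : Set V} (h : Ad G X Y) (h1 : X ⊆ X')
    (h2 : Y ⊆ Y') : Ad G X' Y' := by
  obtain ⟨x, hx, y, hy, hxy⟩ := h
  exact ⟨x, h1 hx, y, h2 hy, hxy⟩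

/-- a `K_5` model from five bags of one or two sets -/
theorem k5_of {V W : Type} {G : SimpleGraph V} {μ : W → Set V} (hc : ∀ a, Cn G (μ a))
    (hd : ∀ a b, a ≠ b → Disjoint (μ a) (μ b)) {R : W → W → Prop}
    (hR : ∀ i j, R i j → Ad G (μ i) (μ j)) (p q : Fin 5 → W)
    (h1 : ∀ i, p i = q i ∨ R (p i) (q i))
    (h2 : ∀ i j, i ≠ j → p i ≠ p j ∧ p i ≠ q j ∧ q i ≠ p j ∧ q i ≠ q j)
    (h3 : ∀ i j, i ≠ j → R (p i) (p j) ∨ R (p i) (q j) ∨ R (q i) (p j) ∨ R (q i) (q j)) :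
    IsMinor K5 G := by
  refine ⟨fun i => μ (p i) ∪ μ (q i), fun i => ?_, fun i j hij => ?_, fun i j hij => ?_⟩
  · rcases h1 i with h | h
    · have : μ (p i) ∪ μ (q i) = μ (p i) := by rw [← h, Set.union_self]
      show Cn G (μ (p i) ∪ μ (q i))
      rw [this]
      exact hc _
    · obtain ⟨x, hx, y, hy, hxy⟩ := hR _ _ h
      exact connected_induce_union (hc _).preconnected (hc _).preconnected hx hy hxy
  · obtain ⟨e1, e2, e3, e4⟩ := h2 i j hij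
    rw [Set.disjoint_union_left, Set.disjoint_union_right, Set.disjoint_union_right]
    exact ⟨⟨hd _ _ e1, hd _ _ e2⟩, hd _ _ e3, hd _ _ e4⟩
  · rcases h3 i j hij.ne with h | h | h | h
    · exact Ad.mono (hR _ _ h) Set.subset_union_left Set.subset_union_left
    · exact Ad.mono (hR _ _ h) Set.subset_union_left Set.subset_union_right
    · exact Ad.mono (hR _ _ h) Set.subset_union_right Set.subset_union_left
    · exact Ad.mono (hR _ _ h) Set.subset_union_right Set.subset_union_right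

/-- the bags -/
def P2 : Fin 5 → Fin 8 := ![1, 3, 6, 0, 2]
def Q2 : Fin 5 → Fin 8 := ![5, 4, 7, 0, 2]
def P3 : Fin 5 → Fin 8 := ![1, 4, 6, 0, 3]
def Q3 : Fin 5 → Fin 8 := ![2, 5, 7, 0, 3]
def P5 : Fin 5 → Fin 8 := ![1, 3, 6, 0, 5]
def Q5 : Fin 5 → Fin 8 := ![2, 4, 7, 0, 5]
def P6 : Fin 5 → Fin 8 := ![1, 3, 4, 0, 6]
def Q6 : Fin 5 → Fin 8 := ![2, 7, 5, 0, 6]

theorem t2a : ∀ i, P2 i = Q2 i ∨ rd 2 (P2 i) (Q2 i) := by decide
theorem t2b : ∀ i j, i ≠ j → P2 i ≠ P2 j ∧ P2 i ≠ Q2 j ∧ Q2 i ≠ P2 j ∧ Q2 i ≠ Q2 j := by decide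
theorem t2c : ∀ i j, i ≠ j → rd 2 (P2 i) (P2 j) ∨ rd 2 (P2 i) (Q2 j) ∨ rd 2 (Q2 i) (P2 j) ∨
    rd 2 (Q2 i) (Q2 j) := by decide
theorem t3a : ∀ i, P3 i = Q3 i ∨ rd 3 (P3 i) (Q3 i) := by decide
theorem t3b : ∀ i j, i ≠ j → P3 i ≠ P3 j ∧ P3 i ≠ Q3 j ∧ Q3 i ≠ P3 j ∧ Q3 i ≠ Q3 j := by decide
theorem t3c : ∀ i j, i ≠ j → rd 3 (P3 i) (P3 j) ∨ rd 3 (P3 i) (Q3 j) ∨ rd 3 (Q3 i) (P3 j) ∨
    rd 3 (Q3 i) (Q3 j) := by decide
theorem t5a : ∀ i, P5 i = Q5 i ∨ rd 5 (P5 i) (Q5 i) := by decide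
theorem t5b : ∀ i j, i ≠ j → P5 i ≠ P5 j ∧ P5 i ≠ Q5 j ∧ Q5 i ≠ P5 j ∧ Q5 i ≠ Q5 j := by decide
theorem t5c : ∀ i j, i ≠ j → rd 5 (P5 i) (P5 j) ∨ rd 5 (P5 i) (Q5 j) ∨ rd 5 (Q5 i) (P5 j) ∨
    rd 5 (Q5 i) (Q5 j) := by decide
theorem t6a : ∀ i, P6 i = Q6 i ∨ rd 6 (P6 i) (Q6 i) := by decide
theorem t6b : ∀ i j, i ≠ j → P6 i ≠ P6 j ∧ P6 i ≠ Q6 j ∧ Q6 i ≠ P6 j ∧ Q6 i ≠ Q6 j := by decide
theorem t6c : ∀ i j, i ≠ j → rd 6 (P6 i) (P6 j) ∨ rd 6 (P6 i) (Q6 j) ∨ rd 6 (Q6 i) (P6 j) ∨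
    rd 6 (Q6 i) (Q6 j) := by decide

theorem diff : ∀ a b : Fin 8, a ≠ b → ¬ raw a b →
    b = 2 + a ∨ b = 3 + a ∨ b = 5 + a ∨ b = 6 + a := by decide

/-- **[W8a]** -/
theorem v8Edge : V8EdgeStmt := by
  intro V _ G μ h a b hab hn hAd
  rw [V8_adj] at hn
  have hc : ∀ i, Cn G (μ (i + a)) := fun i => h.conn _
  have hd : ∀ i j : Fin 8, i ≠ j → Disjoint (μ (i + a)) (μ (j + a)) := fun i j hij =>
    h.disj _ _ (fun he => hij (add_right_cancel he))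
  have hR : ∀ d : Fin 8, b = d + a → ∀ i j, rd d i j → Ad G (μ (i + a)) (μ (j + a)) := by
    intro d hd i j hr
    rcases hr with hr | ⟨h1, h2⟩ | ⟨h1, h2⟩
    · exact h.adj _ _ (V8_adj.2 (raw_shift a i j hr))
    · rw [h1, h2, zero_add, ← hd]
      exact hAd
    · rw [h1, h2, zero_add, ← hd]
      exact Ad.symm hAd
  rcases diff a b hab hn with he | he | he | he
  · exact k5_of hc hd (hR 2 he) P2 Q2 t2a t2b t2c
  · exact k5_of hc hd (hR 3 he) P3 Q3 t3a t3b t3c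
  · exact k5_of hc hd (hR 5 he) P5 Q5 t5a t5b t5c
  · exact k5_of hc hd (hR 6 he) P6 Q6 t6a t6b t6c

end Vale.Agent.P235.K5.H648
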